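import Vale.Agent.P070ZB.Car
import Vale.Agent.P070ZA.Hs
import Vale.Agent.P070ZR.GSum

/-!
# The base algebra in a representation
-/

set_option linter.unusedSectionVars false

namespace Vale.Agent.P070ZB

open Vale.Agent.P129B Vale.Agent.P070Z Vale.Agent.P070ZR

universe v

variable {N : Type v} [ZM N]
variable {R K : Type*} [Nm K R] [Field R] [LinearOrder R] [IsStrictOrderedRing R]
  [Field K] [Algebra R K] [KA R K] [StarRing K] [CX R K] [Coded N R] [RF N R] [Coded N K]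
  [KF N R K]
variable {A : Type*} [Ring A] [StarRing A] [Module K A] [IsScalarTower K A A]
  [SMulCommClass K A A] [Nm A R] [NA R K A] [Coded N A] [NS N R K A] [DefMul N A]
variable {L : Type*} [AddCommGroup L] [Module K L] [Nm L R] [Ip L K] [IA R K L] [Coded N L]
  [HS N R K L]

variable (N K) in
/-- a definable unital contractive action -/
structure Act (ρ : A → L → L) : Prop where
  defF : DefF N (fun p : A × L => ρ p.1 p.2)
  add : ∀ x y z, ρ (x + y) z = ρ x z + ρ y z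
  smul : ∀ (c : K) x z, ρ (c • x) z = c • ρ x z
  mul : ∀ x y z, ρ (x * y) z = ρ x (ρ y z)
  one : ∀ z, ρ 1 z = z
  adj : ∀ x w z, ip w (ρ (star x) z) = ip (ρ x w) z
  nm_le : ∀ x z, nm (ρ x z) ≤ nm x * nm z

variable {ρ : A → L → L} {a : NN N → A} {U k : A}

namespace Act

variable (h : Act N K ρ)
include h

theorem zero (z : L) : ρ 0 z = 0 := by simpa using h.smul 0 0 z

theorem map_zero (x : A) : ρ x 0 = 0 := by
  rw [← h.zero 0, ← h.mul, mul_zero]

theorem sub (x y : A) (z : L) : ρ (x - y) z = ρ x z - ρ y z := by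
  rw [eq_sub_iff_add_eq, ← h.add, sub_add_cancel]

theorem adj' (x : A) (w z : L) : ip w (ρ x z) = ip (ρ (star x) w) z := by
  rw [← h.adj, star_star]

theorem ip_star_mul (x : A) (z : L) :
    ip z (ρ (star x * x) z) = algebraMap R K (nm (ρ x z) ^ 2) := by
  rw [h.mul, h.adj, ip_self]

theorem ip_lip (w z : L) (x y : A) :
    nm (ip w (ρ x z) - ip w (ρ y z)) ≤ nm w * nm z * nm (x - y) := by
  rw [← ip_sub_right, ← h.sub]
  refine (nm_ip_le _ _).trans ?_
  rw [mul_assoc, mul_comm (nm z)]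
  exact mul_le_mul_of_nonneg_left (h.nm_le _ _) (nm_nonneg _)

theorem nm_sq_add (hR : Rel a U) (i : NN N) (z : L) :
    nm (ρ (a i) z) ^ 2 + nm (ρ (star (a i)) z) ^ 2 = nm z ^ 2 := by
  have h1 : ip z (ρ (a i * star (a i) + star (a i) * a i) z) = ip z z := by
    rw [hR.car i, h.one]
  have h2 := h.ip_star_mul (star (a i)) z
  rw [star_star] at h2
  rw [h.add, ip_add_right, h2, h.ip_star_mul, ip_self, ← map_add] at h1
  linarith [KA.ofR_inj h1]

theorem gen_le (hR : Rel a U) (i : NN N) (z : L) : nm (ρ (a i) z) ≤ nm z :=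
  (abs_le_of_sq_le_sq' (by nlinarith [h.nm_sq_add hR i z, sq_nonneg (nm (ρ (star (a i)) z))])
    (nm_nonneg z)).2

theorem ker_iff (hA : SA N K A) (ha : DefF N a)
    (hk : IsGSum R K (fun n => star (a n) * a n) k) (z : L) : ρ k z = 0 ↔ ∀ i, ρ (a i) z = 0 := by
  have hst := hA.dstar
  have hρ := h.defF
  constructor
  · intro h0 i
    have h1 := hk.le (by fun_prop) (φ := fun x => KA.re (ip z (ρ x z))) (by fun_prop)
      (fun x y => by rw [h.add, ip_add_right, map_add])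
      (fun r x => by rw [h.smul, ip_smul_right, KA.re_ofR_mul]) (C := nm z * nm z)
      (fun x => by
        have := h.ip_lip z z x 0
        rw [h.zero, ip_zero_right, sub_zero, sub_zero] at this
        exact (KA.re_le_nm _).trans this)
      (mul_self_nonneg _) (fun n => by rw [h.ip_star_mul, KA.re_ofR]; positivity) i
    simp only [h0, ip_zero_right, _root_.map_zero, h.ip_star_mul, KA.re_ofR] at h1
    have h2 : nm (ρ (a i) z) ^ 2 ≤ 0 := nonpos_of_mul_nonpos_right h1 (hp_pos _)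
    exact nm_eq_zero.1 (pow_eq_zero_iff two_ne_zero |>.1 (le_antisymm h2 (sq_nonneg _)))
  · intro h0
    exact hk.map_eq_zero (by fun_prop) (φ := fun x => ρ x z) (by fun_prop)
      (fun x y => h.add x y z) (fun c x => h.smul c x z) (C := nm z)
      (fun x => (h.nm_le x z).trans_eq (mul_comm _ _)) (nm_nonneg z)
      fun n => by rw [h.mul, h0, h.map_zero]

theorem re_nonneg (hA : SA N K A) (ha : DefF N a)
    (hk : IsGSum R K (fun n => star (a n) * a n) k) (z : L) : 0 ≤ KA.re (ip z (ρ k z)) := by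
  have hst := hA.dstar
  have hρ := h.defF
  have h1 := hk.le (by fun_prop) (φ := fun x => KA.re (ip z (ρ x z))) (by fun_prop)
    (fun x y => by rw [h.add, ip_add_right, map_add])
    (fun r x => by rw [h.smul, ip_smul_right, KA.re_ofR_mul]) (C := nm z * nm z)
    (fun x => by
      have := h.ip_lip z z x 0
      rw [h.zero, ip_zero_right, sub_zero, sub_zero] at this
      exact (KA.re_le_nm _).trans this)
    (mul_self_nonneg _) (fun n => by rw [h.ip_star_mul, KA.re_ofR]; positivity) 0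
  refine le_trans ?_ h1
  simp only [h.ip_star_mul, KA.re_ofR]
  exact mul_nonneg (hp_pos _).le (sq_nonneg _)

theorem sym (hA : SA N K A) (ha : DefF N a)
    (hk : IsGSum R K (fun n => star (a n) * a n) k) (w z : L) :
    ip (ρ k w) z = ip w (ρ k z) := by
  have hst := hA.dstar
  have hρ := h.defF
  have h1 : ∀ x, ip (ρ x w) z = star (ip z (ρ x w)) := fun x => (star_ip _ _).symm
  refine hk.ind (by fun_prop) (Q := fun x => ip (ρ x w) z = ip w (ρ x z)) (by fun_prop)
    (by simp only [h.zero, ip_zero_left, ip_zero_right])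
    (fun x y hx hy => by rw [h.add, h.add, ip_add_left, ip_add_right, hx, hy])
    (fun r x _ hx => by rw [h.smul, h.smul, ip_smul_left, ip_smul_right, hx, star_ofR])
    (fun x hx => ?_) fun n => by rw [← h.adj, star_mul, star_star]
  refine sub_eq_zero.1 (cld_eq_zero (f := fun x => ip (ρ x w) z - ip w (ρ x z))
    (C := 2 * (nm w * nm z)) (fun x y => ?_) fun ε hε => ?_)
  · have e : ip (ρ x w) z - ip w (ρ x z) - (ip (ρ y w) z - ip w (ρ y z)) =
        star (ip z (ρ x w) - ip z (ρ y w)) - (ip w (ρ x z) - ip w (ρ y z)) := by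
      rw [star_sub, star_ip, star_ip]; ring
    rw [e]
    refine (nm_sub_le _ _).trans ?_
    rw [nm_star]
    nlinarith [h.ip_lip w z x y, h.ip_lip z w x y]
  · exact (hx ε hε).imp fun y hy => ⟨sub_eq_zero.2 hy.1, hy.2⟩

/-- the elements which are scalars on a subspace form a closed set -/
theorem cls_det (V : L → Prop) :
    Cls {x : A | ∃ c : K, ∀ z w, V z → V w → ip w (ρ x z) = c * ip w z} := by
  intro x hx
  by_cases hV : ∃ v, V v ∧ v ≠ 0
  · obtain ⟨v, hv, hv0⟩ := hV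
    have hvv : ip v v ≠ 0 := fun e => hv0 (ip_self_eq_zero.1 e)
    refine ⟨ip v (ρ x v) / ip v v, fun z w hz hw => ?_⟩
    have h1 : ip w (ρ x z) * ip v v - ip v (ρ x v) * ip w z = 0 := by
      refine cld_eq_zero (f := fun x => ip w (ρ x z) * ip v v - ip v (ρ x v) * ip w z)
        (C := nm w * nm z * nm (ip v v) + nm v * nm v * nm (ip w z)) (fun x y => ?_)
        fun ε hε => ?_
      · have e : ip w (ρ x z) * ip v v - ip v (ρ x v) * ip w z -
            (ip w (ρ y z) * ip v v - ip v (ρ y v) * ip w z) =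
            (ip w (ρ x z) - ip w (ρ y z)) * ip v v - (ip v (ρ x v) - ip v (ρ y v)) * ip w z := by
          ring
        rw [e]
        refine (nm_sub_le _ _).trans ?_
        rw [KA.nm_mul, KA.nm_mul]
        nlinarith [mul_le_mul_of_nonneg_right (h.ip_lip w z x y) (nm_nonneg (ip v v)),
          mul_le_mul_of_nonneg_right (h.ip_lip v v x y) (nm_nonneg (ip w z))]
      · refine (hx ε hε).imp fun y hy => ⟨?_, hy.2⟩
        obtain ⟨c, hc⟩ := hy.1
        show ip w (ρ y z) * ip v v - ip v (ρ y v) * ip w z = 0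
        rw [hc z w hz hw, hc v v hv hv]; ring
    rw [div_mul_eq_mul_div, eq_div_iff hvv]
    exact sub_eq_zero.1 h1
  · refine ⟨0, fun z w hz _ => ?_⟩
    have : z = 0 := by_contra fun e => hV ⟨z, hz, e⟩
    rw [this, h.map_zero, ip_zero_right, zero_mul]

/-- The base algebra is determined on the kernel. -/
theorem det (hA : SA N K A) (ha : DefF N a) (hR : Rel a U)
    (hk : IsGSum R K (fun n => star (a n) * a n) k) :
    ∃ T : Set A, Intl N T ∧ (1 : A) ∈ T ∧ (∀ x ∈ T, ∀ y ∈ T, x + y ∈ T) ∧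
      (∀ c : K, ∀ x ∈ T, c • x ∈ T) ∧ (∀ x ∈ T, ∀ y ∈ T, x * y ∈ T) ∧ (∀ x ∈ T, star x ∈ T) ∧
      Cls T ∧ (∀ i, a i ∈ T) ∧
      ∀ x ∈ T, ∃ c : K, ∀ z w, ρ k z = 0 → ρ k w = 0 → ip w (ρ x z) = c * ip w z := by
  have hρ := h.defF
  refine car_ind hA ha hR (J := {y | ∀ z, ρ k z = 0 → ρ y z = 0})
    (F := {x | ∃ c : K, ∀ z w, ρ k z = 0 → ρ k w = 0 → ip w (ρ x z) = c * ip w z})
    (intl_setOfT (by fun_prop)) (fun x y hy z hz => by rw [h.mul, hy z hz, h.map_zero])
    (fun i z hz => (h.ker_iff hA ha hk z).1 hz i) (intl_setOfT (by fun_prop))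
    ⟨⟨1, fun z w _ _ => by rw [h.one, one_mul]⟩,
      fun y hy => ⟨0, fun z w hz _ => by rw [hy z hz, ip_zero_right, zero_mul]⟩, ?_, ?_,
      h.cls_det fun z => ρ k z = 0, fun i y _ => ⟨0, fun z w _ hw => ?_⟩⟩
  · rintro x ⟨c, hc⟩ y ⟨d, hd⟩
    exact ⟨c + d, fun z w hz hw => by
      rw [h.add, ip_add_right, hc z w hz hw, hd z w hz hw, add_mul]⟩
  · rintro c x ⟨d, hd⟩
    exact ⟨c * d, fun z w hz hw => by rw [h.smul, ip_smul_right, hd z w hz hw, mul_assoc]⟩
  · rw [h.mul, h.adj, (h.ker_iff hA ha hk w).1 hw i, ip_zero_left, zero_mul]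

theorem exists_kill (ha : DefF N a) (hR : Rel a U) {G : Set A} (hG : Intl N G) (h1 : 1 ∈ G)
    (hm : ∀ i, ∀ y ∈ G, a i * y ∈ G) {z : L} (hz : z ≠ 0) (m : NN N) :
    ∃ b ∈ G, ρ b z ≠ 0 ∧ ∀ i, i < m → ρ (a i) (ρ b z) = 0 := by
  have hρ := h.defF
  refine NN.ind (P := fun m => ∃ b ∈ G, ρ b z ≠ 0 ∧ ∀ i, i < m → ρ (a i) (ρ b z) = 0)
    (by fun_prop) ⟨1, h1, by rwa [h.one], fun i hi => absurd hi (not_lt.2 (NN.zero_le' i))⟩ ?_ m
  rintro m ⟨b, hb, hbz, H⟩
  by_cases h0 : ρ (a m) (ρ b z) = 0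
  · exact ⟨b, hb, hbz, fun i hi => (NN.lt_add_one_cases hi).elim (H i) fun e => e ▸ h0⟩
  · refine ⟨a m * b, hm m b hb, by rwa [h.mul], fun i hi => ?_⟩
    rw [h.mul, ← h.mul]
    rcases NN.lt_add_one_cases hi with h2 | rfl
    · rw [hR.comm i m h2.ne, h.mul, H i h2, h.map_zero]
    · rw [hR.sq, h.zero]

theorem full (hA : SA N K A) (ha : DefF N a) (hR : Rel a U)
    (hk : IsGSum R K (fun n => star (a n) * a n) k) {G : Set A} (hG : Intl N G) (h1 : 1 ∈ G)
    (hm : ∀ i, ∀ y ∈ G, a i * y ∈ G) {z : L} (hz : z ≠ 0) {ε : R} (hε : 0 < ε) :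
    ∃ b ∈ G, ρ b z ≠ 0 ∧ nm (ρ k (ρ b z)) ≤ ε * nm (ρ b z) := by
  have hst := hA.dstar
  have hρ := h.defF
  obtain ⟨m, hm'⟩ := exists_hp_lt N hε
  obtain ⟨b, hb, hbz, H⟩ := h.exists_kill ha hR hG h1 hm hz m
  refine ⟨b, hb, hbz, ?_⟩
  have h2 : ρ (gps R K (fun n => star (a n) * a n) m) (ρ b z) = 0 :=
    isum_induction (P := fun x => ρ x (ρ b z) = 0) (by fun_prop) (h.zero _)
      (fun x y hx hy => by rw [h.add, hx, hy, add_zero]) (by fun_prop)
      fun i hi => by rw [h.smul, h.mul, H i hi, h.map_zero, smul_zero]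
  have h3 := h.nm_le (gps R K (fun n => star (a n) * a n) m - k) (ρ b z)
  rw [h.sub, h2, zero_sub, nm_neg] at h3
  exact h3.trans (mul_le_mul_of_nonneg_right ((hk m).trans (hm' m le_rfl).le) (nm_nonneg _))

theorem on_self (hA : SA N K A) (ha : DefF N a) (hR : Rel a U)
    (hk : IsGSum R K (fun n => star (a n) * a n) k) {z : L} (hz : ρ k z = 0) (i : NN N) :
    nm (ρ (star (a i)) z) = nm z := by
  have h1 := h.nm_sq_add hR i z
  rw [(h.ker_iff hA ha hk z).1 hz i, nm_zero, zero_pow two_ne_zero, zero_add] at h1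
  exact (sq_eq_sq₀ (nm_nonneg _) (nm_nonneg _)).1 h1

theorem on_ne (hA : SA N K A) (ha : DefF N a) (hR : Rel a U)
    (hk : IsGSum R K (fun n => star (a n) * a n) k) {z : L} (hz : ρ k z = 0) {i j : NN N}
    (hij : i ≠ j) : ip (ρ (star (a i)) z) (ρ (star (a j)) z) = 0 := by
  rw [← h.adj', ← h.mul, hR.comm' i j hij, h.mul, (h.ker_iff hA ha hk z).1 hz i, h.map_zero,
    ip_zero_right]

end Act

end Vale.Agent.P070ZB
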