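import Vale.Agent.P129BZ.Scal
import Vale.Agent.P129BI.FP

/-!
# The base algebra: the induction principle for commuting matrix units
-/

set_option linter.unusedSectionVars false

namespace Vale.Agent.P070ZB

open Vale.Agent.P129B

universe v

/-- the relations between the generators of the base algebra -/
structure Rel {ι A : Type*} [Ring A] [StarRing A] (a : ι → A) (U : A) : Prop where
  sq : ∀ i, a i * a i = 0
  car : ∀ i, a i * star (a i) + star (a i) * a i = 1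
  comm : ∀ i j, i ≠ j → a i * a j = a j * a i
  comm' : ∀ i j, i ≠ j → a i * star (a j) = star (a j) * a i
  U_comm : ∀ i, U * a i = a i * U
  U_comm' : ∀ i, U * star (a i) = star (a i) * U

variable {N : Type v} [ZM N]
variable {R : Type*} [Field R] [LinearOrder R] [IsStrictOrderedRing R] [Coded N R] [RF N R]
variable {K : Type*} [Field K] [Algebra R K] [Nm K R] [KA R K] [Coded N K] [KF N R K]
variable {A : Type*} [Ring A] [StarRing A] [Module K A] [IsScalarTower K A A]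
  [SMulCommClass K A A] [Nm A R] [NA R K A] [Coded N A] [NS N R K A] [DefMul N A]

/-- norm closed sets -/
def Cls {A R : Type*} [Sub A] [Zero R] [LT R] [Nm A R] (S : Set A) : Prop :=
  ∀ x, (∀ ε : R, 0 < ε → ∃ y ∈ S, nm (x - y) < ε) → x ∈ S

variable (N K A) in
/-- the facts on the involution and the norm -/
structure SA : Prop where
  dstar : DefF N (fun x : A => star x)
  nm_mul : ∀ x y : A, nm (x * y) ≤ nm x * nm y
  nm_star : ∀ x : A, nm (star x) = nm x
  star_smul : ∀ c : K, ∃ d : K, ∀ x : A, star (c • x) = d • star x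

variable (K) in
/-- closed subspaces containing `1` and `J`, invariant under the adjoints of the generators -/
structure Stb (a : NN N → A) (J S : Set A) : Prop where
  one : (1 : A) ∈ S
  sub : ∀ y ∈ J, y ∈ S
  add : ∀ x ∈ S, ∀ y ∈ S, x + y ∈ S
  smul : ∀ c : K, ∀ x ∈ S, c • x ∈ S
  cld : Cls S
  inv : ∀ i, ∀ y ∈ S, star (a i) * y ∈ S

omit [StarRing A] in
theorem small_mul [NG R A] (hm : ∀ x y : A, nm (x * y) ≤ nm x * nm y) (c : A) {ε : R} (hε : 0 < ε) :
    ∃ δ : R, 0 < δ ∧ ∀ x : A, nm x < δ → nm (c * x) < ε ∧ nm (x * c) < ε := by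
  have hc := nm_nonneg c
  refine ⟨ε / (nm c + 1), by positivity, fun x hx => ?_⟩
  have h1 : nm c * nm x < ε := by
    have h2 := (lt_div_iff₀ (by positivity : 0 < nm c + 1)).1 hx
    nlinarith [nm_nonneg x]
  exact ⟨(hm c x).trans_lt h1, (hm x c).trans_lt (by rwa [mul_comm])⟩

theorem exists_least (h : SA N K A) {a : NN N → A} (ha : DefF N a) {J : Set A} (hJ : Intl N J) :
    ∃ C : Set A, Intl N C ∧ Stb K a J C ∧ ∀ S, Intl N S → Stb K a J S → C ⊆ S := by
  have hS : DefF N (fun S : Set A => Stb K a J S) := by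
    refine DefF.congrP (P := fun S : Set A => (1 : A) ∈ S ∧ (∀ y ∈ J, y ∈ S) ∧
      (∀ x ∈ S, ∀ y ∈ S, x + y ∈ S) ∧ (∀ c : K, ∀ x ∈ S, c • x ∈ S) ∧
      (∀ x, (∀ ε : R, 0 < ε → ∃ y ∈ S, nm (x - y) < ε) → x ∈ S) ∧
      ∀ i, ∀ y ∈ S, star (a i) * y ∈ S) ?_ fun S _ =>
      ⟨fun k => ⟨k.1, k.2.1, k.2.2.1, k.2.2.2.1, k.2.2.2.2.1, k.2.2.2.2.2⟩,
        fun k => ⟨k.one, k.sub, k.add, k.smul, k.cld, k.inv⟩⟩
    have hst := h.dstar
    fun_prop
  refine ⟨{x | ∀ S : Set A, Intl N S → Stb K a J S → x ∈ S}, intl_setOfT (by fun_prop), ?_,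
    fun S h1 h2 x hx => hx S h1 h2⟩
  exact ⟨fun S _ k => k.one, fun y hy S _ k => k.sub y hy,
    fun x hx y hy S i k => k.add _ (hx S i k) _ (hy S i k),
    fun c x hx S i k => k.smul c _ (hx S i k),
    fun x hx S i k => k.cld x fun ε hε => (hx ε hε).imp fun y hy => ⟨hy.1 S i k, hy.2⟩,
    fun j y hy S i k => k.inv j _ (hy S i k)⟩

/-- **The induction principle.** A closed subspace containing `1`, a left ideal `J` which contains
the generators, and invariant under the adjoints of the generators, contains a closed star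
subalgebra containing the generators. -/
theorem car_ind (h : SA N K A) {a : NN N → A} {U : A} (ha : DefF N a) (hR : Rel a U)
    {J F : Set A} (hJ : Intl N J) (hJm : ∀ x, ∀ y ∈ J, x * y ∈ J) (hJa : ∀ i, a i ∈ J)
    (hF : Intl N F) (hFs : Stb K a J F) :
    ∃ T : Set A, Intl N T ∧ (1 : A) ∈ T ∧ (∀ x ∈ T, ∀ y ∈ T, x + y ∈ T) ∧
      (∀ c : K, ∀ x ∈ T, c • x ∈ T) ∧ (∀ x ∈ T, ∀ y ∈ T, x * y ∈ T) ∧ (∀ x ∈ T, star x ∈ T) ∧
      Cls T ∧ (∀ i, a i ∈ T) ∧ T ⊆ F := by
  obtain ⟨C, hC, hs, hmin⟩ := exists_least h ha hJ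
  have hst := h.dstar
  have key : ∀ y ∈ C, ∀ j, a j * y ∈ C := by
    have h1 : C ⊆ {y | y ∈ C ∧ ∀ j, a j * y ∈ C} := by
      refine hmin _ (intl_setOfT (by fun_prop)) ⟨⟨hs.one, fun j => ?_⟩,
        fun y hy => ⟨hs.sub y hy, fun j => hs.sub _ (hJm _ y hy)⟩,
        fun x hx y hy => ⟨hs.add _ hx.1 _ hy.1, fun j => ?_⟩,
        fun c x hx => ⟨hs.smul c _ hx.1, fun j => ?_⟩,
        fun x hx => ⟨hs.cld x fun ε hε => (hx ε hε).imp fun y hy => ⟨hy.1.1, hy.2⟩, fun j => ?_⟩,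
        fun i y hy => ⟨hs.inv i y hy.1, fun j => ?_⟩⟩
      · rw [mul_one]; exact hs.sub _ (hJa j)
      · rw [mul_add]; exact hs.add _ (hx.2 j) _ (hy.2 j)
      · rw [mul_smul_comm]; exact hs.smul c _ (hx.2 j)
      · refine hs.cld _ fun ε hε => ?_
        obtain ⟨δ, hδ, hd⟩ := small_mul h.nm_mul (a j) hε
        obtain ⟨y, hy, hxy⟩ := hx δ hδ
        exact ⟨a j * y, hy.2 j, by rw [← mul_sub]; exact (hd _ hxy).1⟩
      · by_cases hij : j = i
        · subst hij
          have e : a j * (star (a j) * y) = y + (-1 : K) • (star (a j) * (a j * y)) := by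
            rw [neg_one_smul, ← sub_eq_add_neg, ← mul_assoc, ← mul_assoc, eq_sub_iff_add_eq,
              ← add_mul, hR.car j, one_mul]
          rw [e]
          exact hs.add _ hy.1 _ (hs.smul _ _ (hs.inv j _ (hy.2 j)))
        · rw [← mul_assoc, hR.comm' j i hij, mul_assoc]
          exact hs.inv i _ (hy.2 j)
    exact fun y hy => (h1 hy).2
  refine ⟨{x | ∀ y ∈ C, x * y ∈ C ∧ star x * y ∈ C}, intl_setOfT (by fun_prop),
    fun y hy => by simpa using hy, fun x hx z hz y hy => ?_, fun c x hx y hy => ?_,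
    fun x hx z hz y hy => ?_, fun x hx y hy => ?_, fun x hx y hy => ⟨?_, ?_⟩,
    fun i y hy => ⟨key y hy i, hs.inv i y hy⟩, fun x hx => hmin F hF hFs ?_⟩
  · rw [star_add, add_mul, add_mul]
    exact ⟨hs.add _ (hx y hy).1 _ (hz y hy).1, hs.add _ (hx y hy).2 _ (hz y hy).2⟩
  · obtain ⟨d, hd⟩ := h.star_smul c
    rw [hd, smul_mul_assoc, smul_mul_assoc]
    exact ⟨hs.smul _ _ (hx y hy).1, hs.smul _ _ (hx y hy).2⟩
  · rw [star_mul, mul_assoc, mul_assoc]
    exact ⟨(hx _ (hz y hy).1).1, (hz _ (hx y hy).2).2⟩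
  · rw [star_star]; exact ⟨(hx y hy).2, (hx y hy).1⟩
  · refine hs.cld _ fun ε hε => ?_
    obtain ⟨δ, hδ, hd⟩ := small_mul h.nm_mul y hε
    obtain ⟨z, hz, hxz⟩ := hx δ hδ
    exact ⟨z * y, (hz y hy).1, by rw [← sub_mul]; exact (hd _ hxz).2⟩
  · refine hs.cld _ fun ε hε => ?_
    obtain ⟨δ, hδ, hd⟩ := small_mul h.nm_mul y hε
    obtain ⟨z, hz, hxz⟩ := hx δ hδ
    exact ⟨star z * y, (hz y hy).2, by
      rw [← sub_mul, ← star_sub]; exact (hd _ (by rwa [h.nm_star])).2⟩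
  · simpa using (hx 1 hs.one).1

end Vale.Agent.P070ZB
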