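import Vale.Agent.P070ZB.OpB
import Vale.Agent.P070ZA.Defs
import Vale.Agent.P070ZM.Model

/-!
# The base data of the tower
-/

set_option linter.unusedSectionVars false

namespace Vale.Agent.P070ZB

open Vale.Agent.P129B Vale.Agent.P070Z Vale.Agent.P070ZR Vale.Agent.P070ZT

universe v w

variable {N : Type v} [ZM N]
  {R K : Type*} [Nm K R] [Field R] [LinearOrder R] [IsStrictOrderedRing R]
  [Field K] [Algebra R K] [KA R K] [StarRing K] [CX R K] [Coded N R] [RF N R] [Coded N K]
  [KF N R K] {H : Type*} [AddCommGroup H] [Module K H] [Nm H R] [Ip H K] [IA R K H] [Coded N H]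
  [HS N R K H]

/-- no nonzero subspace of the form `ker k'`, `k'` in the commutant of `U`, on which all
generators are scalars -/
def NoV (a : NN N → Op N K H) (U : Op N K H) : Prop :=
  ∀ k' : Op N K H, Com U k' →
    (∀ i, ∃ c : K, ∀ z w : H, k' z = 0 → k' w = 0 → ip w (a i z) = c * ip w z) →
    ∀ z : H, k' z = 0 → z = 0

include R K

variable {a : NN N → Op N K H} {U k : Op N K H}

section

variable {L : Type*} [AddCommGroup L] [Module K L] [Nm L R] [Ip L K] [IA R K L] [Coded N L]
  [HS N R K L] {P : Op N K H → Op N K L}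

theorem act_of_urp (hP : URp Set.univ P) : Act N K (fun (x : Op N K H) (z : L) => P x z) := by
  have hd := hP.defF
  exact ⟨by fun_prop, fun x y z => by rw [hP.add x trivial y trivial, Op.add_apply],
    fun c x z => by rw [hP.smul c x trivial, Op.smul_apply],
    fun x y z => hP.toRp.mul_apply trivial trivial z, hP.one_apply,
    fun x w z => hP.toRp.ip_star_right trivial w z, fun x z => hP.bd x trivial z⟩

/-- **The base algebra.** -/
theorem Rel.isBase (hR : Rel a U) (ha : DefF N a) (noV : NoV a U)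
    (hk : IsGSum R K (fun n => star (a n) * a n) k) (hP : URp Set.univ P) :
    IsBase P (gen (Set.range a)) k U := by
  have hi : Intl N a := ha.toIntl
  have hr : Intl N (Set.range a) := intl_range a
  have hG : CS N K (gen (Set.range a)) := cs_gen _
  have hm : ∀ i, a i ∈ gen (Set.range a) := fun i => sub_gen _ ⟨i, rfl⟩
  have h := act_of_urp hP
  refine ⟨hG, ⟨a, hi, hm, subset_rfl⟩, kk_mem ha hk hG.intl hG.add hG.smul hG.cld
    fun n => hG.mul _ (hG.star _ (hm n)) _ (hm n), ⟨kk_sa ha hk, kk_re ha hk⟩, hk.nm_le, ?_, ?_,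
    fun z hz ε hε => h.full sa_op ha hR hk hG.intl hG.one (fun i y hy => hG.mul _ (hm i) y hy) hz hε,
    fun k' hk' H => noV k' hk' fun i => H _ (hm i), fun z hz hkz => ⟨fun n => star (a n),
      DefF.toIntl (by fun_prop), fun n => hG.star _ (hm n),
      fun n => (h.on_self sa_op ha hR hk hkz n).trans hz,
      fun _ _ hmn => h.on_ne sa_op ha hR hk hkz hmn⟩⟩
  · refine gen_le (cs_com U) ?_
    rintro _ ⟨i, rfl⟩
    exact ⟨hR.U_comm i, hR.star_comm i⟩
  · obtain ⟨T, t1, t2, t3, t4, t5, t6, t7, t8, t9⟩ := h.det sa_op ha hR hk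
    have hT : CS N K T := (cs_iff T).2 ⟨t1, t2, t3, t5, t4, t6, fun x hx => t7 x hx⟩
    exact fun x hx => t9 x (gen_le hT (Set.range_subset_iff.2 t8) hx)

end

/-- **Base data in all representations.** -/
theorem Rel.exists_base (hR : Rel a U) (ha : DefF N a) (noV : NoV a U) :
    ∃ (A0 : Set (Op N K H)) (k : Op N K H), IsBase (fun x => x) A0 k U ∧
      ∀ (L : Type w) [AddCommGroup L] [Module K L] [Nm L R] [Ip L K] [IA R K L] [Coded N L]
        [HS N R K L] (P : Op N K H → Op N K L), URp Set.univ P → IsBase P A0 k U := by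
  obtain ⟨k, hk⟩ := hR.exists_kk ha
  exact ⟨_, k, hR.isBase ha noV hk urp_id, fun L _ _ _ _ _ _ _ P hP => hR.isBase ha noV hk hP⟩

variable (N R K) in
/-- **The base of the tower exists.** -/
theorem exists_base : ∃ (A0 : Set (Op N K (M98.HM N R K))) (k U : Op N K (M98.HM N R K)),
    (∃ x : M98.HM N R K, nm x = 1) ∧ IsBase (fun x => x) A0 k U ∧
      ∀ (L : Type w) [AddCommGroup L] [Module K L] [Nm L R] [Ip L K] [IA R K L] [Coded N L]
        [HS N R K L] (P : Op N K (M98.HM N R K) → Op N K L), URp Set.univ P →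
          IsBase P A0 k U := by
  obtain ⟨U, a, hx, ha, hR, -, -, noV⟩ := exists_model (N := N) (R := R) (K := K)
  obtain ⟨A0, k, h1, h2⟩ := hR.exists_base ha fun k' hk' => noV k' hk'.1
  exact ⟨A0, k, U, hx, h1, h2⟩

end Vale.Agent.P070ZB
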