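import Vale.Agent.P070ZB.Act
import Vale.Agent.P070ZA.Op

/-!
# The base algebra of operators
-/

set_option linter.unusedSectionVars false

namespace Vale.Agent.P070ZB

open Vale.Agent.P129B Vale.Agent.P070Z Vale.Agent.P070ZR

universe v

variable {N : Type v} [ZM N]
  {R K : Type*} [Nm K R] [Field R] [LinearOrder R] [IsStrictOrderedRing R]
  [Field K] [Algebra R K] [KA R K] [StarRing K] [CX R K] [Coded N R] [RF N R] [Coded N K]
  [KF N R K] {H : Type*} [AddCommGroup H] [Module K H] [Nm H R] [Ip H K] [IA R K H] [Coded N H]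
  [HS N R K H]

include R K

theorem sa_op : SA N K (Op N K H) :=
  ⟨DefStar.out, Op.nm_mul_le, Op.nm_star, fun c => ⟨star c, fun x => star_smul c x⟩⟩

theorem act_id : Act N K (fun (x : Op N K H) (z : H) => x z) :=
  ⟨by fun_prop, fun _ _ _ => rfl, fun _ _ _ => rfl, fun _ _ _ => rfl, fun _ => rfl,
    fun x w z => ip_star_right x w z, Op.le_opNorm⟩

variable {a : NN N → Op N K H} {U k : Op N K H}

theorem Rel.nm_le (hR : Rel a U) (i : NN N) : nm (a i) ≤ 1 :=
  Op.opNorm_le zero_le_one fun z => by rw [one_mul]; exact act_id.gen_le hR i z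

/-- the positive operator `∑ 2^(-n-1) aₙ* aₙ` -/
theorem Rel.exists_kk (hR : Rel a U) (ha : DefF N a) :
    ∃ k, IsGSum R K (fun n => star (a n) * a n) k :=
  exists_gsum (by fun_prop) fun n => by
    have := Op.nm_mul_le_of ((Op.nm_star (a n)).trans_le (hR.nm_le n)) (hR.nm_le n)
    rwa [mul_one] at this

theorem kk_sa (ha : DefF N a) (hk : IsGSum R K (fun n => star (a n) * a n) k) : star k = k :=
  sa_of_ip fun x y => act_id.sym sa_op ha hk x y

theorem kk_re (ha : DefF N a) (hk : IsGSum R K (fun n => star (a n) * a n) k) (z : H) :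
    0 ≤ KA.re (ip z (k z)) := act_id.re_nonneg sa_op ha hk z

theorem kk_mem (ha : DefF N a) (hk : IsGSum R K (fun n => star (a n) * a n) k)
    {G : Set (Op N K H)} (hG : Intl N G) (hadd : ∀ x ∈ G, ∀ y ∈ G, x + y ∈ G)
    (hsm : ∀ c : K, ∀ x ∈ G, c • x ∈ G) (hcl : Cld G) (hm : ∀ n, star (a n) * a n ∈ G) :
    k ∈ G :=
  hk.ind (by fun_prop) (Q := fun x => x ∈ G) (by fun_prop)
    (by simpa using hsm 0 _ (hm 0)) (fun x y hx hy => hadd x hx y hy)
    (fun _ x _ hx => hsm _ x hx) (fun _ hx => hcl hx) hm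

theorem cld_comm (T : Op N K H) : Cld {x : Op N K H | T * x = x * T} := by
  have : {x : Op N K H | T * x = x * T} = {x | T * x - x * T = 0} := by simp only [sub_eq_zero]
  rw [this]
  refine cld_eq_zero (C := 2 * nm T) fun x y => ?_
  have e : T * x - x * T - (T * y - y * T) = T * (x - y) - (x - y) * T := by noncomm_ring
  rw [e]
  linarith [nm_sub_le (T * (x - y)) ((x - y) * T), Op.nm_mul_le T (x - y), Op.nm_mul_le (x - y) T,
    mul_comm (nm (x - y)) (nm T)]

theorem Rel.star_comm (hR : Rel a U) (i : NN N) : star U * a i = a i * star U := by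
  have := congrArg star (hR.U_comm' i)
  rw [star_mul, star_mul, star_star] at this
  exact this.symm

end Vale.Agent.P070ZB
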